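import Crest.Agent.R241.N1.Trunc
import Crest.Agent.R241.N1.Wirt
import Crest.Agent.R241.Core0

/-!
# Block N1: the function `u = 2 sn (r/2)` and passage to the limit.
-/

open MeasureTheory Set Filter Topology
open Crest.GeometryTopology.MetricCurrent
open Crest.GeometryTopology.Submanifold (Euc unitBallVol unitSphereArea)
open scoped ENNReal NNReal InnerProductSpace

noncomputable section

namespace Crest.Agent.R241

universe u

variable {X : Type u} [MetricSpace X] {σ Λ : ℝ} {k : ℕ}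

/-- `u = √(2 κ_x)` -/
def n1u (σ : ℝ) (x y : X) : ℝ := 2 * sn σ (dist x y / 2)

theorem n1u_sq (hσ : 0 ≤ σ) (x y : X) : n1u σ x y ^ 2 = 2 * kap σ x y := by
  rw [n1u, kap, md_eq_half hσ]; ring

theorem dist_le_n1u (hσ : 0 ≤ σ) (x y : X) : dist y x ≤ n1u σ x y := by
  have := le_sn hσ (r := dist x y / 2) (by positivity)
  rw [n1u, dist_comm]; linarith

theorem n1u_nonneg (hσ : 0 ≤ σ) (x y : X) : 0 ≤ n1u σ x y := dist_nonneg.trans (dist_le_n1u hσ x y)

theorem n1u_self (σ : ℝ) (x : X) : n1u σ x x = 0 := by simp [n1u]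

theorem continuous_n1u (σ : ℝ) (x : X) : Continuous (n1u σ x) := by
  unfold n1u
  exact continuous_const.mul ((continuous_sn σ).comp (by fun_prop))

variable [CompactSpace X]

theorem lip_n1u (σ : ℝ) (x : X) : Lip (n1u σ x) :=
  (Lip.dist_right x).contDiff_comp₁ (Φ := fun r => 2 * sn σ (r / 2))
    (contDiff_const.mul (((contDiff_sn σ).of_le (by exact_mod_cast le_top)).comp
      (contDiff_id.div_const 2)))

theorem n1_grad_kap (hσ : 0 ≤ σ) (c : Ch X k) (x : X) : ∀ᵐ w ∂c.par,
    c.grad (kap σ x) w = n1u σ x (c.pt w) • c.grad (n1u σ x) w := by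
  have h1 : kap σ x = fun y => n1u σ x y ^ 2 / 2 := funext fun y => by rw [n1u_sq hσ]; ring
  filter_upwards [c.grad_comp₁ (lip_n1u σ x) (Φ := fun t => t ^ 2 / 2) fun y => by fun_prop]
    with w hw
  rw [h1, hw]
  congr 1
  have : HasDerivAt (fun t : ℝ => t ^ 2 / 2) (n1u σ x (c.pt w)) (n1u σ x (c.pt w)) :=
    HasDerivAt.congr_deriv (f := fun t : ℝ => t ^ 2 / 2)
      ((hasDerivAt_pow 2 (n1u σ x (c.pt w))).div_const 2) (by push_cast; ring)
  exact this.deriv

variable [MeasurableSpace X] [BorelSpace X] {Ω : Type u} [MeasurableSpace Ω]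

omit [CompactSpace X] [BorelSpace X] in
theorem n1_conv_pt {c : ℕ → Ch X k} {V : VS σ Λ k X Ω} (hV : Conv c V) (x : X) {f : X → ℝ}
    (hf : Continuous f) :
    Tendsto (fun j => ∫ w, f ((c j).pt w) ∂(c j).par) atTop (𝓝 (∫ o, f (V.p o) ∂V.ν)) :=
  hV x (fun q => f q.1) (hf.comp continuous_fst)

omit [CompactSpace X] [BorelSpace X] in
theorem n1_M_eq {A : ℝ} {c : ℕ → Ch X k} {V : VS σ Λ k X Ω} (hV : Conv c V) (x : X)
    (h : Tendsto (fun j => (c j).area) atTop (𝓝 A)) : V.M = A := by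
  have := n1_conv_pt hV x (f := fun _ => 1) continuous_const
  simp only [integral_const, smul_eq_mul, mul_one] at this
  exact tendsto_nhds_unique this h

theorem n1_integrable_p (V : VS σ Λ k X Ω) {f : X → ℝ} (hf : Continuous f) :
    Integrable (fun o => f (V.p o)) V.ν := by
  obtain ⟨C, hC⟩ := (isCompact_range hf.norm).bddAbove
  exact Integrable.of_bound (hf.measurable.comp V.meas_p).aestronglyMeasurable C
    (Eventually.of_forall fun o => hC (mem_range_self _))

theorem n1_mass {c : ℕ → Ch X k} {V : VS σ Λ k X Ω} (hV : Conv c V) (x : X) {u : X → ℝ}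
    (hu : Lip u) (hu0 : ∀ y, 0 ≤ u y) (hux : u x = 0)
    (hx : ∀ ρ > 0, 0 < V.ν.real {o | dist (V.p o) x ≤ ρ}) :
    ∀ δ > 0, ∃ m > 0, ∀ᶠ j in atTop, m ≤ (n1R (c j) hu δ).area := by
  intro δ hδ
  set f : X → ℝ := fun y => max 0 (1 - u y / δ) with hf
  have hfc : Continuous f := by have := hu.continuous; simp only [hf]; fun_prop
  have hf0 : ∀ y, 0 ≤ f y := fun y => le_max_left _ _
  have hf1 : ∀ y, f y ≤ 1 := fun y => max_le zero_le_one (by linarith [div_nonneg (hu0 y) hδ.le])
  obtain ⟨ρ, hρ, hball⟩ : ∃ ρ > 0, ∀ y, dist y x ≤ ρ → 1 / 2 ≤ f y := by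
    have h1 : ∀ᶠ y in 𝓝 x, 1 / 2 < f y :=
      hfc.continuousAt.eventually (lt_mem_nhds (by simp only [hf, hux]; norm_num))
    obtain ⟨ρ, hρ, h2⟩ := Metric.nhds_basis_closedBall.mem_iff.1 h1
    exact ⟨ρ, hρ, fun y hy => le_of_lt (h2 hy)⟩
  have hpos : 0 < ∫ o, f (V.p o) ∂V.ν := by
    have hm : MeasurableSet {o | dist (V.p o) x ≤ ρ} :=
      measurableSet_le (V.meas_p.dist measurable_const) measurable_const
    calc 0 < 1 / 2 * V.ν.real {o | dist (V.p o) x ≤ ρ} := by linarith [hx ρ hρ]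
      _ ≤ ∫ o in {o | dist (V.p o) x ≤ ρ}, f (V.p o) ∂V.ν :=
          setIntegral_ge_of_const_le_real hm (measure_ne_top _ _) (fun o ho => hball _ ho)
            (n1_integrable_p V hfc).integrableOn
      _ ≤ _ := setIntegral_le_integral (n1_integrable_p V hfc)
          (Eventually.of_forall fun o => hf0 _)
  refine ⟨_, half_pos hpos, ?_⟩
  filter_upwards [(n1_conv_pt hV x hfc).eventually (lt_mem_nhds (half_lt_self hpos))] with j hj
  refine hj.le.trans ?_
  rw [Ch.area_restr, ← setIntegral_eq_integral_of_forall_compl_eq_zero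
    (s := (c j).pt ⁻¹' {y | u y ≤ δ}) fun w hw => ?_]
  · have := norm_setIntegral_le_of_norm_le_const (μ := (c j).par)
      (s := (c j).pt ⁻¹' {y | u y ≤ δ}) (f := fun w => f ((c j).pt w)) (C := 1)
      (measure_lt_top _ _) fun w _ => by rw [Real.norm_of_nonneg (hf0 _)]; exact hf1 _
    rw [one_mul] at this
    exact (le_abs_self _).trans this
  · have h1 : δ < u ((c j).pt w) := not_le.1 hw
    have h2 : 1 < u ((c j).pt w) / δ := (one_lt_div hδ).2 h1
    exact max_eq_left (by linarith)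

theorem n1_lim_le {c : ℕ → Ch X k} {V : VS σ Λ k X Ω} (hV : Conv c V) (x : X) {u : X → ℝ}
    (hu : Continuous u) {τ : ℕ → ℝ} {T A : ℝ} (hτ : Tendsto τ atTop (𝓝 T))
    (hA : Tendsto (fun j => (c j).area) atTop (𝓝 A)) (hin : ∀ j, (c j).In {y | u y ≤ τ j}) :
    ∀ᵐ o ∂V.ν, u (V.p o) ≤ T := by
  set f : X → ℝ := fun y => max 0 (u y - T) with hf
  have hfc : Continuous f := by simp only [hf]; fun_prop
  have h1 : Tendsto (fun j => max 0 (τ j - T) * (c j).area) atTop (𝓝 (max 0 (T - T) * A)) :=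
    (tendsto_const_nhds.max (hτ.sub_const T)).mul hA
  rw [sub_self, max_self, zero_mul] at h1
  have h2 : ∫ o, f (V.p o) ∂V.ν ≤ 0 := by
    refine le_of_tendsto_of_tendsto' (n1_conv_pt hV x hfc) h1 fun j => ?_
    calc _ ≤ ∫ _, max 0 (τ j - T) ∂(c j).par := by
          refine integral_mono_ae ((c j).integrable_comp_pt hfc) (integrable_const _) ?_
          filter_upwards [(hin j).ae] with w hw
          exact max_le_max le_rfl (sub_le_sub_right hw T)
      _ = _ := by rw [integral_const, smul_eq_mul, mul_comm]; rfl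
  have h3 := (integral_eq_zero_iff_of_nonneg (f := fun o => f (V.p o)) (fun o => le_max_left _ _)
    (n1_integrable_p V hfc)).1 (le_antisymm h2 (integral_nonneg fun o => le_max_left _ _))
  filter_upwards [h3] with o ho
  have : u (V.p o) - T ≤ f (V.p o) := le_max_right _ _
  have h4 : f (V.p o) = 0 := ho
  linarith

/-- the normalised tangential speed -/
def n1g (V : VS σ Λ k X Ω) (x : X) (o : Ω) : ℝ := ‖V.ξ o x‖ / n1u σ x (V.p o)

omit [CompactSpace X] in
theorem measurable_n1g (V : VS σ Λ k X Ω) (x : X) : Measurable (n1g V x) :=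
  (V.meas_ξ x).norm.div ((continuous_n1u σ x).measurable.comp V.meas_p)

theorem n1g_sq_le (hσ : 0 ≤ σ) (V : VS σ Λ k X Ω) (x : X) (o : Ω) :
    n1g V x o ^ 2 ≤ 1 + σ * kap σ x (V.p o) / 2 := by
  have h0 := kap_nonneg hσ x (V.p o)
  rw [n1g, div_pow, n1u_sq hσ]
  rcases h0.eq_or_lt with h | h
  · rw [← h]; simp
  · rw [div_le_iff₀ (by positivity)]
    nlinarith [V.norm_ξ_sq_le hσ o x]

theorem n1g_bound (hσ : 0 ≤ σ) (V : VS σ Λ k X Ω) (x : X) : ∃ G, ∀ o, n1g V x o ∈ Icc 0 G := by
  obtain ⟨K, hK⟩ := (isCompact_range (lip_kap hσ x).continuous).bddAbove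
  refine ⟨1 + σ * K / 2, fun o => ⟨div_nonneg (norm_nonneg _) (n1u_nonneg hσ _ _), ?_⟩⟩
  have h1 := n1g_sq_le hσ V x o
  have h2 : σ * kap σ x (V.p o) ≤ σ * K := mul_le_mul_of_nonneg_left (hK (mem_range_self _)) hσ
  have h3 := mul_nonneg hσ (kap_nonneg hσ x (V.p o))
  exact le_of_sq_le_sq_of_nonneg' h1 h2 h3
where
  le_of_sq_le_sq_of_nonneg' {g a b : ℝ} (h1 : g ^ 2 ≤ 1 + a / 2) (h2 : a ≤ b) (h3 : 0 ≤ a) :
      g ≤ 1 + b / 2 := by nlinarith

theorem n1_lim_cross (hσ : 0 ≤ σ) {c : ℕ → Ch X 1} {V : VS σ Λ 1 X Ω} (hV : Conv c V) (x : X)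
    (hc : ∀ j, (c j).IsCyc) {s t : ℝ} (hs : 0 < s) (hst : s < t)
    (h : ∀ᶠ j in atTop, ∀ r ∈ Icc s t, ¬ (n1R (c j) (lip_n1u σ x) r).IsCyc) :
    2 * (t - s) ≤ ∫ o in {o | n1u σ x (V.p o) ∈ Icc s t}, n1g V x o ∂V.ν := by
  set u := n1u σ x with hu
  have huc : Continuous u := continuous_n1u σ x
  set χ : ℕ → ℝ → ℝ := fun n v => max 0 (1 - n * Metric.infDist v (Icc s t)) with hχ
  have hχc : ∀ n, Continuous (χ n) := fun n => by
    have := Metric.continuous_infDist_pt (Icc s t)
    simp only [hχ]; fun_prop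
  have hχ0 : ∀ n v, 0 ≤ χ n v := fun n v => le_max_left _ _
  have hχ1 : ∀ n v, χ n v ≤ 1 := fun n v => max_le zero_le_one (by
    linarith [mul_nonneg (Nat.cast_nonneg (α := ℝ) n) (Metric.infDist_nonneg (x := v)
      (s := Icc s t))])
  have hχin : ∀ n, ∀ v ∈ Icc s t, χ n v = 1 := fun n v hv => by
    simp only [hχ, Metric.infDist_zero_of_mem hv]; simp
  set G : ℕ → X × Euc 1 → ℝ := fun n q => χ n (u q.1) * (‖q.2‖ / max (u q.1) s) with hG
  have hmax : ∀ y, 0 < max (u y) s := fun y => hs.trans_le (le_max_right _ _)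
  have hGc : ∀ n, Continuous (G n) := fun n =>
    ((hχc n).comp (huc.comp continuous_fst)).mul
      (continuous_snd.norm.div ((huc.comp continuous_fst).max continuous_const) fun q =>
        (hmax q.1).ne')
  have hG0 : ∀ n q, 0 ≤ G n q := fun n q =>
    mul_nonneg (hχ0 _ _) (div_nonneg (norm_nonneg _) (hmax _).le)
  have hGle : ∀ n q, G n q ≤ ‖q.2‖ / s := fun n q =>
    (mul_le_of_le_one_left (div_nonneg (norm_nonneg _) (hmax _).le) (hχ1 _ _)).trans
      (div_le_div_of_nonneg_left (norm_nonneg _) hs (le_max_right _ _))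
  have h1 : ∀ n, 2 * (t - s) ≤ ∫ o, G n (V.p o, V.ξ o x) ∂V.ν := fun n => by
    refine ge_of_tendsto (hV x (G n) (hGc n)) ?_
    filter_upwards [h] with j hj
    refine (n1_cross (c j) (hc j) (lip_n1u σ x) hj).trans ?_
    have hi : Integrable (fun w => G n ((c j).pt w, (c j).grad (kap σ x) w)) (c j).par := by
      refine Integrable.mono' (((c j).integrable_grad (lip_kap hσ x)).norm.div_const s)
        ((hGc n).comp_aestronglyMeasurable ((c j).aemeasurable_pt.aestronglyMeasurable.prodMk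
          ((c j).aesm_grad (lip_kap hσ x)))) (Eventually.of_forall fun w => ?_)
      rw [Real.norm_of_nonneg (hG0 _ _)]; exact hGle _ _
    refine le_trans ?_ (setIntegral_le_integral (s := {w | u ((c j).pt w) ∈ Icc s t}) hi
      (Eventually.of_forall fun w => hG0 _ _))
    refine le_of_eq (integral_congr_ae ?_)
    have hnm : NullMeasurableSet {w | u ((c j).pt w) ∈ Icc s t} (c j).par :=
      (huc.measurable.comp_aemeasurable (c j).aemeasurable_pt).nullMeasurableSet_preimage
        measurableSet_Icc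
    rw [EventuallyEq, ae_restrict_iff'₀ hnm]
    filter_upwards [n1_grad_kap hσ (c j) x] with w hw hws
    have hpos : 0 < u ((c j).pt w) := hs.trans_le hws.1
    simp only [hG]
    rw [hχin n _ hws, one_mul, max_eq_left hws.1, hw, norm_smul, Real.norm_of_nonneg hpos.le,
      mul_div_cancel_left₀ _ hpos.ne']
  obtain ⟨S, hS⟩ := (isCompact_range ((continuous_sn σ).comp
    (continuous_const.dist continuous_id : Continuous fun y : X => dist x y))).bddAbove
  have hm : MeasurableSet {o | u (V.p o) ∈ Icc s t} :=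
    (huc.measurable.comp V.meas_p) measurableSet_Icc
  have h2 : Tendsto (fun n => ∫ o, G n (V.p o, V.ξ o x) ∂V.ν) atTop
      (𝓝 (∫ o, {o | u (V.p o) ∈ Icc s t}.indicator (n1g V x) o ∂V.ν)) := by
    refine tendsto_integral_of_dominated_convergence (fun _ => S / s)
      (fun n => ((hGc n).measurable.comp (V.meas_p.prodMk (V.meas_ξ x))).aestronglyMeasurable)
      (integrable_const _) (fun n => Eventually.of_forall fun o => ?_)
      (Eventually.of_forall fun o => ?_)
    · rw [Real.norm_of_nonneg (hG0 _ _)]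
      exact (hGle _ _).trans (div_le_div_of_nonneg_right
        ((V.bound o x).trans (hS (mem_range_self (V.p o)))) hs.le)
    · by_cases ho : u (V.p o) ∈ Icc s t
      · rw [indicator_of_mem (show o ∈ {o | u (V.p o) ∈ Icc s t} from ho)]
        refine tendsto_const_nhds.congr fun n => ?_
        simp only [hG]
        rw [hχin n _ ho, one_mul, max_eq_left ho.1, n1g]
      · rw [indicator_of_notMem (show o ∉ {o | u (V.p o) ∈ Icc s t} from ho)]
        have hd : 0 < Metric.infDist (u (V.p o)) (Icc s t) :=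
          (isClosed_Icc.notMem_iff_infDist_pos (nonempty_Icc.2 hst.le)).1 ho
        refine tendsto_const_nhds.congr' ?_
        filter_upwards [(tendsto_natCast_atTop_atTop.atTop_mul_const hd).eventually_ge_atTop 1]
          with n hn
        simp only [hG, hχ]
        rw [max_eq_left (by linarith), zero_mul]
  rw [integral_indicator hm] at h2
  exact ge_of_tendsto' h2 h1

/-- the first variation inequality with the weighted AM-GM inequality -/
theorem n1_vs_ineq (hσ : 0 ≤ σ) (V : VS σ Λ 1 X Ω) (x : X) {l : ℝ} (hl : 0 < l) :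
    V.M + σ * ∫ o, kap σ x (V.p o) ∂V.ν
      ≤ l * (V.M + σ * (∫ o, kap σ x (V.p o) ∂V.ν) / 2 - ∫ o, n1g V x o ^ 2 ∂V.ν)
        + Λ ^ 2 * (∫ o, kap σ x (V.p o) ∂V.ν) / (2 * l) := by
  have hk : Integrable (fun o => kap σ x (V.p o)) V.ν :=
    n1_integrable_p V (lip_kap hσ x).continuous
  obtain ⟨G, hG⟩ := n1g_bound hσ V x
  have hg2 : Integrable (fun o => n1g V x o ^ 2) V.ν :=
    Integrable.of_bound ((measurable_n1g V x).pow_const 2).aestronglyMeasurable (G ^ 2)
      (Eventually.of_forall fun o => by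
        rw [Real.norm_of_nonneg (sq_nonneg _)]; exact pow_le_pow_left₀ (hG o).1 (hG o).2 2)
  have hsn : Continuous fun y => sn σ (dist x y) := (continuous_sn σ).comp (by fun_prop)
  have hN : Integrable (fun o => √(sn σ (dist x (V.p o)) ^ 2 - ‖V.ξ o x‖ ^ 2)) V.ν := by
    refine Integrable.mono' (n1_integrable_p V hsn)
      ((((hsn.measurable.comp V.meas_p).pow_const 2).sub
        ((V.meas_ξ x).norm.pow_const 2)).sqrt).aestronglyMeasurable
      (Eventually.of_forall fun o => ?_)
    rw [Real.norm_of_nonneg (Real.sqrt_nonneg _)]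
    exact Real.sqrt_le_iff.2 ⟨sn_nonneg hσ dist_nonneg, by linarith [sq_nonneg ‖V.ξ o x‖]⟩
  have h1 := V.fv_one x
  simp only [Nat.cast_one, one_mul] at h1
  rw [integral_add (integrable_const _) (hk.const_mul σ), integral_const, integral_const_mul,
    smul_eq_mul, mul_one, ← integral_const_mul Λ] at h1
  refine le_trans h1 ?_
  have hi1 : Integrable (fun o => 1 + σ * kap σ x (V.p o) / 2) V.ν :=
    (integrable_const _).add ((hk.const_mul σ).div_const 2)
  have hi2 : Integrable (fun o => 1 + σ * kap σ x (V.p o) / 2 - n1g V x o ^ 2) V.ν := hi1.sub hg2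
  calc _ ≤ ∫ o, (l * (1 + σ * kap σ x (V.p o) / 2 - n1g V x o ^ 2)
        + Λ ^ 2 * kap σ x (V.p o) / (2 * l)) ∂V.ν := by
        refine integral_mono (hN.const_mul Λ)
          ((hi2.const_mul l).add ((hk.const_mul _).div_const _)) fun o => ?_
        have h0 := kap_nonneg hσ x (V.p o)
        have hsq : sn σ (dist x (V.p o)) ^ 2
            = 2 * kap σ x (V.p o) + σ * kap σ x (V.p o) ^ 2 := sn_sq hσ _
        have hξ := V.norm_ξ_sq_le hσ o x
        set N := √(sn σ (dist x (V.p o)) ^ 2 - ‖V.ξ o x‖ ^ 2) with hNdef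
        have hN2 : N ^ 2 = 2 * kap σ x (V.p o) + σ * kap σ x (V.p o) ^ 2 - ‖V.ξ o x‖ ^ 2 := by
          rw [hNdef, Real.sq_sqrt (by linarith), hsq]
        have hg : n1g V x o ^ 2 = ‖V.ξ o x‖ ^ 2 / (2 * kap σ x (V.p o)) := by
          rw [n1g, div_pow, n1u_sq hσ]
        show Λ * N ≤ _
        rw [hg]
        set κ := kap σ x (V.p o)
        rcases h0.eq_or_lt with h | h
        · have hN0 : N = 0 := by
            have : N ^ 2 ≤ 0 := by rw [hN2, ← h]; nlinarith [sq_nonneg ‖V.ξ o x‖]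
            exact pow_eq_zero_iff (two_ne_zero) |>.1 (le_antisymm this (sq_nonneg _))
          rw [hN0, ← h]; simp [hl.le]
        · have h2 : 1 + σ * κ / 2 - ‖V.ξ o x‖ ^ 2 / (2 * κ) = N ^ 2 / (2 * κ) := by
            rw [hN2]; field_simp
          rw [h2]
          have h3 : l * (N ^ 2 / (2 * κ)) + Λ ^ 2 * κ / (2 * l) - Λ * N
              = (l * N - Λ * κ) ^ 2 / (2 * κ * l) := by field_simp; ring
          have h4 : 0 ≤ (l * N - Λ * κ) ^ 2 / (2 * κ * l) := by positivity
          linarith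
    _ = _ := by
        rw [integral_add (hi2.const_mul l) ((hk.const_mul _).div_const _), integral_const_mul,
          integral_sub hi1 hg2, integral_add (integrable_const _) ((hk.const_mul σ).div_const 2),
          integral_div, integral_div, integral_const_mul, integral_const_mul, integral_const,
          smul_eq_mul, mul_one]
        rfl

end Crest.Agent.R241
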