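import Crest.Agent.R241.Lim

/-!
# Block N1: truncating near-minimising `1`-cycles at the first level where they close up.
-/

open MeasureTheory Set Filter Topology
open Crest.GeometryTopology.MetricCurrent
open Crest.GeometryTopology.Submanifold (Euc unitBallVol unitSphereArea)
open scoped ENNReal NNReal InnerProductSpace

noncomputable section

namespace Crest.Agent.R241

universe u

variable {X : Type u} [MetricSpace X] {k : ℕ}

theorem n1_ch_ext {c c' : Ch X k} (hE : c.E = c'.E) (hφ : c.φ = c'.φ) (hs : c.sg = c'.sg) :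
    c = c' := by
  cases c; cases c'
  simp only at hE hφ hs
  subst hE hφ hs
  rfl

variable [MeasurableSpace X] [BorelSpace X]

theorem n1_restr_restr (c : Ch X k) {A B : Set X} (hA : MeasurableSet A) (hB : MeasurableSet B)
    (h : B ⊆ A) : (c.restr A hA).restr B hB = c.restr B hB := by
  refine n1_ch_ext (funext fun i => ?_) rfl rfl
  ext z
  exact ⟨fun hz => ⟨hz.1.1, hz.2⟩, fun hz => ⟨⟨hz.1, h hz.2⟩, hz.2⟩⟩

theorem n1_restr_all (c : Ch X k) {A : Set X} (hA : MeasurableSet A) (h : ∀ y, y ∈ A) :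
    c.restr A hA = c := by
  refine n1_ch_ext (funext fun i => ?_) rfl rfl
  ext z
  exact ⟨fun hz => hz.1, fun hz => ⟨hz, h _⟩⟩

/-- the part of `c` in `{u ≤ t}` -/
abbrev n1R (c : Ch X k) {u : X → ℝ} (hu : Lip u) (t : ℝ) : Ch X k :=
  c.restr {y | u y ≤ t} (hu.measurableSet_le t)

/-- the part of `c` in `{t < u}` -/
abbrev n1C (c : Ch X k) {u : X → ℝ} (hu : Lip u) (t : ℝ) : Ch X k :=
  c.restr {y | u y ≤ t}ᶜ (hu.measurableSet_le t).compl

theorem n1R_all (c : Ch X k) {u : X → ℝ} (hu : Lip u) {t : ℝ} (h : ∀ y, u y ≤ t) :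
    n1R c hu t = c := n1_restr_all c _ h

theorem n1R_n1R (c : Ch X k) {u : X → ℝ} (hu : Lip u) {s t : ℝ} (h : s ≤ t) :
    n1R (n1R c hu t) hu s = n1R c hu s := n1_restr_restr c _ _ fun _ hy => le_trans hy h

theorem n1R_area_mono (c : Ch X k) {u : X → ℝ} (hu : Lip u) {s t : ℝ} (h : s ≤ t) :
    (n1R c hu s).area ≤ (n1R c hu t).area := by
  rw [Ch.area_restr, Ch.area_restr]
  exact measureReal_mono (fun w hw => le_trans hw h) (measure_ne_top _ _)

theorem n1_area_add (c : Ch X k) {u : X → ℝ} (hu : Lip u) (t : ℝ) :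
    (n1R c hu t).area + (n1C c hu t).area = c.area := c.area_restr_add_compl _

theorem n1_homol_cone {c : Ch X k} {u : X → ℝ} (hu : Lip u) {t : ℝ} {S : Ch X (k + 1)}
    (h : IsBd S (n1R c hu t)) : Homol c (n1C c hu t) S := fun f π hπ => by
  rw [h f π hπ, ← c.act_restr_add_compl (hu.measurableSet_le t) hπ, add_comm]

variable [CompactSpace X]

/-- near-minimisers have no small closed pieces carrying mass -/
theorem n1_nosmall (H : Hyp 0 X) {P : ℝ → ℝ} {Λ A : ℝ} {c : ℕ → Ch X 1} (h : NearMin P Λ A c)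
    (x : X) {u : X → ℝ} (hu : Lip u) (hux : ∀ y, dist y x ≤ u y)
    (hmass : ∀ δ > 0, ∃ m > 0, ∀ᶠ j in atTop, m ≤ (n1R (c j) hu δ).area) :
    ∃ t₀ > 0, ∀ δ > 0, ∀ᶠ j in atTop, ∀ t ∈ Icc δ t₀, ¬ (n1R (c j) hu t).IsCyc := by
  obtain ⟨l, hl, hsl⟩ := h.slope
  obtain ⟨C, hC⟩ := exists_cone H x 1
  refine ⟨l, hl, fun δ hδ => ?_⟩
  obtain ⟨m, hm, hmj⟩ := hmass δ hδ
  have h1 : ∀ᶠ j in atTop, (c j).area < A + m / 8 :=
    h.area.eventually (Iio_mem_nhds (by linarith))
  filter_upwards [hmj, h1, h.near (l * m / 16) (by positivity)] with j hj1 hj2 hj3 t ht hcyc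
  obtain ⟨S, hS, -, hSa⟩ := hC _ hcyc (l * m / 16) (by positivity)
  have h2 := hj3 _ _ (n1_homol_cone hu hS)
  have ha := n1_area_add (c j) hu t
  have hma : m ≤ (n1R (c j) hu t).area := hj1.trans (n1R_area_mono _ hu ht.1)
  set a' := (n1R (c j) hu t).area with ha'
  have h3 := hsl (n1C (c j) hu t).area ⟨Ch.area_nonneg _, by linarith⟩
  have h4 : ∫ w, dist ((n1R (c j) hu t).pt w) x ∂(n1R (c j) hu t).par ≤ l * a' := by
    calc _ ≤ ∫ _, l ∂(n1R (c j) hu t).par := by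
          refine integral_mono_ae
            (Ch.integrable_comp_pt _ (f := fun y => dist y x) (by fun_prop)) (integrable_const _) ?_
          filter_upwards [((c j).restr_in (hu.measurableSet_le t)).ae] with w hw
          exact (hux _).trans (le_trans hw ht.2)
      _ = l * a' := by rw [integral_const, smul_eq_mul, mul_comm]; rfl
  have h5 : S.area ≤ l * a' / 2 + l * m / 16 := by
    refine hSa.trans ?_
    have : ((1 : ℕ) : ℝ) + 1 = 2 := by norm_num
    rw [this]; linarith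
  have h6 : (n1C (c j) hu t).area < A + m / 8 - a' := by linarith
  nlinarith [mul_le_mul_of_nonneg_left hma hl.le, mul_lt_mul_of_pos_left h6 hl, mul_pos hl hm]

/-- crossing inequality for one chain -/
theorem n1_cross (c : Ch X 1) (hc : c.IsCyc) {u : X → ℝ} (hu : Lip u) {s t : ℝ}
    (h : ∀ r ∈ Icc s t, ¬ (n1R c hu r).IsCyc) :
    2 * (t - s) ≤ ∫ w in {w | u (c.pt w) ∈ Icc s t}, ‖c.grad u w‖ ∂c.par := by
  set I := ∫ w in {w | u (c.pt w) ∈ Icc s t}, ‖c.grad u w‖ ∂c.par with hI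
  have hI0 : 0 ≤ I := integral_nonneg fun _ => norm_nonneg _
  have key : ∀ ε > 0, 2 * (t - s) ≤ (1 + ε) * I := fun ε hε => by
    obtain ⟨b, -, hb, hae⟩ := exists_slice (k := 0) c hu (t + 1) (fun π hπ _ => hc π hπ) hε
    have h1 : ∀ᵐ r ∂volume.restrict (Icc s t), (2 : ℝ≥0∞) ≤ b r := by
      rw [ae_restrict_iff' measurableSet_Icc]
      filter_upwards [hae] with r hr hrs
      obtain ⟨sl, hbd, hsl, -⟩ := hr (by linarith [hrs.2])
      by_contra hlt
      refine h r hrs fun π hπ => ?_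
      have harea : sl.area < 2 := by
        have := hsl.trans_lt (not_le.1 hlt)
        rwa [show (2 : ℝ≥0∞) = ENNReal.ofReal 2 by simp,
          ENNReal.ofReal_lt_ofReal_iff (by norm_num)] at this
      have hπ' : π = Fin.cons (π 0) (fun i : Fin 0 => π i.succ) := by
        funext i; refine Fin.cases rfl (fun i => i.elim0) i
      rw [hπ', hbd _ _ (isTestPair_iff.2 ⟨hπ 0, fun a => a.elim0⟩)]
      exact sl.act_eq_zero_of_area_lt hbd.isCyc harea _ _
    have h2 : ENNReal.ofReal (2 * (t - s)) ≤ ENNReal.ofReal ((1 + ε) * I) := by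
      calc ENNReal.ofReal (2 * (t - s)) = ∫⁻ _ in Icc s t, (2 : ℝ≥0∞) := by
            rw [setLIntegral_const, Real.volume_Icc, ENNReal.ofReal_mul (by norm_num)]; simp
        _ ≤ ∫⁻ r in Icc s t, b r := lintegral_mono_ae h1
        _ ≤ _ := hb _ measurableSet_Icc
        _ = _ := by
            rw [ENNReal.ofReal_mul (by linarith), hI,
              ofReal_integral_norm_eq_lintegral_enorm (c.integrable_grad hu).integrableOn]
    exact (ENNReal.ofReal_le_ofReal_iff (by positivity)).1 h2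
  have hlim : Tendsto (fun ε : ℝ => (1 + ε) * I) (𝓝[>] 0) (𝓝 ((1 + 0) * I)) :=
    (Continuous.tendsto (by fun_prop) _).mono_left nhdsWithin_le_nhds
  rw [add_zero, one_mul] at hlim
  exact ge_of_tendsto hlim (eventually_nhdsWithin_of_forall key)

/-- truncation at the first closing level -/
theorem n1_trunc {A : ℝ} {c : ℕ → Ch X k} (hcyc : ∀ j, (c j).IsCyc)
    (harea : Tendsto (fun j => (c j).area) atTop (𝓝 A)) {u : X → ℝ} (hu : Lip u)
    (hmass : ∀ δ > 0, ∃ m > 0, ∀ᶠ j in atTop, m ≤ (n1R (c j) hu δ).area) {t₀ : ℝ} (ht₀ : 0 < t₀)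
    (hno : ∀ δ > 0, ∀ᶠ j in atTop, ∀ t ∈ Icc δ t₀, ¬ (n1R (c j) hu t).IsCyc) :
    ∃ (φ : ℕ → ℕ) (τ : ℕ → ℝ) (T a : ℝ), StrictMono φ ∧ 0 < T ∧ Tendsto τ atTop (𝓝 T) ∧
      (∀ j, (n1R (c (φ j)) hu (τ j)).IsCyc) ∧
      Tendsto (fun j => (n1C (c (φ j)) hu (τ j)).area) atTop (𝓝 a) ∧ 0 ≤ a ∧ a < A ∧
      ∀ s t, 0 < s → t < T → ∀ᶠ j in atTop, ∀ r ∈ Icc s t,
        ¬ (n1R (n1R (c (φ j)) hu (τ j)) hu r).IsCyc := by
  obtain ⟨U, hU⟩ : ∃ U, ∀ y, u y ≤ U := by
    obtain ⟨U, hU⟩ := (isCompact_range hu.continuous).bddAbove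
    exact ⟨U, fun y => hU (mem_range_self y)⟩
  set Z : ℕ → Set ℝ := fun j => {t | t ∈ Icc t₀ (max t₀ U) ∧ (n1R (c j) hu t).IsCyc} with hZ
  have hne : ∀ j, (Z j).Nonempty := fun j =>
    ⟨max t₀ U, ⟨le_max_left _ _, le_rfl⟩, by
      rw [n1R_all _ hu fun y => (hU y).trans (le_max_right _ _)]; exact hcyc j⟩
  have hbb : ∀ j, BddBelow (Z j) := fun j => ⟨t₀, fun t ht => ht.1.1⟩
  choose τ hτZ hτ using fun j : ℕ =>
    Real.lt_sInf_add_pos (hne j) (Nat.one_div_pos_of_nat (α := ℝ) (n := j))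
  obtain ⟨B, hB⟩ := harea.bddAbove_range
  have hmem : ∀ j, (τ j, (n1C (c j) hu (τ j)).area) ∈ Icc t₀ (max t₀ U) ×ˢ Icc 0 B := fun j =>
    ⟨(hτZ j).1, Ch.area_nonneg _, by
      have h1 := n1_area_add (c j) hu (τ j)
      have h2 : (c j).area ≤ B := hB (mem_range_self j)
      linarith [(n1R (c j) hu (τ j)).area_nonneg]⟩
  obtain ⟨⟨T, a⟩, hTa, φ, hφ, hlim⟩ := (isCompact_Icc.prod isCompact_Icc).tendsto_subseq hmem
  have hτl : Tendsto (fun j => τ (φ j)) atTop (𝓝 T) := (continuous_fst.tendsto _).comp hlim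
  have hal : Tendsto (fun j => (n1C (c (φ j)) hu (τ (φ j))).area) atTop (𝓝 a) :=
    (continuous_snd.tendsto _).comp hlim
  refine ⟨φ, fun j => τ (φ j), T, a, hφ, ht₀.trans_le hTa.1.1, hτl, fun j => (hτZ _).2, hal,
    hTa.2.1, ?_, fun s t hs htT => ?_⟩
  · obtain ⟨m, hm, hmj⟩ := hmass t₀ ht₀
    have h1 : m ≤ A - a := by
      refine ge_of_tendsto ((harea.comp hφ.tendsto_atTop).sub hal) ?_
      filter_upwards [hφ.tendsto_atTop.eventually hmj] with j hj
      have h1 := n1_area_add (c (φ j)) hu (τ (φ j))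
      have h2 := n1R_area_mono (c (φ j)) hu (hτZ (φ j)).1.1
      simp only [Function.comp]
      linarith
    linarith
  · have h1 : Tendsto (fun j => τ (φ j) - 1 / ((φ j : ℝ) + 1)) atTop (𝓝 (T - 0)) :=
      hτl.sub (tendsto_one_div_add_atTop_nhds_zero_nat.comp hφ.tendsto_atTop)
    rw [sub_zero] at h1
    filter_upwards [hφ.tendsto_atTop.eventually (hno s hs), h1.eventually (Ioi_mem_nhds htT)]
      with j hj1 hj2 r hr
    have hj2' : t < τ (φ j) - 1 / ((φ j : ℝ) + 1) := hj2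
    have hpos : (0 : ℝ) < 1 / ((φ j : ℝ) + 1) := Nat.one_div_pos_of_nat
    have hrτ : r ≤ τ (φ j) := by linarith [hr.2]
    rw [n1R_n1R _ hu hrτ]
    rcases le_total r t₀ with h2 | h2
    · exact hj1 r ⟨hr.1, h2⟩
    · intro hc
      have h3 : r ∈ Z (φ j) := ⟨⟨h2, hrτ.trans (hτZ _).1.2⟩, hc⟩
      have h4 := csInf_le (hbb _) h3
      linarith [hτ (φ j), hr.2]

omit [CompactSpace X] in
/-- the truncated cycles are again near-minimisers -/
theorem n1_nearmin {P : ℝ → ℝ} {Λ A a : ℝ} {c : ℕ → Ch X k} (h : NearMin P Λ A c)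
    {u : X → ℝ} (hu : Lip u) {τ : ℕ → ℝ} (hcyc : ∀ j, (n1R (c j) hu (τ j)).IsCyc)
    (ha : Tendsto (fun j => (n1C (c j) hu (τ j)).area) atTop (𝓝 a)) (ha0 : 0 ≤ a) (haA : a < A) :
    NearMin (fun b => P (b + a)) Λ (A - a) fun j => n1R (c j) hu (τ j) where
  Λ_pos := h.Λ_pos
  A_pos := sub_pos.2 haA
  mono := fun b hb b' hb' hbb => h.mono (add_nonneg hb ha0) (add_nonneg hb' ha0) (by linarith)
  cont := h.cont.comp (by fun_prop) fun b hb => add_nonneg hb ha0
  deriv := by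
    have h1 : HasDerivAt P Λ⁻¹ (A - a + a) := by rw [sub_add_cancel]; exact h.deriv
    exact h1.comp_add_const (A - a) a
  slope := by
    obtain ⟨l, hl, hsl⟩ := h.slope
    refine ⟨l, hl, fun b hb => ?_⟩
    have := hsl (b + a) ⟨add_nonneg hb.1 ha0, by linarith [hb.2]⟩
    rw [sub_add_cancel]
    linarith
  cyc := hcyc
  area := by
    refine (h.area.sub ha).congr fun j => ?_
    linarith [n1_area_add (c j) hu (τ j)]
  near := fun η hη => by
    have huc : UniformContinuousOn P (Icc 0 (A + 1)) :=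
      isCompact_Icc.uniformContinuousOn_of_continuous (h.cont.mono fun b hb => hb.1)
    obtain ⟨δ, hδ, hP⟩ := Metric.uniformContinuousOn_iff.1 huc (η / 2) (by positivity)
    filter_upwards [h.near (η / 2) (by positivity),
      ha.eventually (Metric.ball_mem_nhds a (lt_min hδ one_pos))] with j hj1 hj2 c' R hR
    rw [sub_add_cancel]
    have hj2' : |(n1C (c j) hu (τ j)).area - a| < min δ 1 := hj2
    rcases le_total A (c'.area + a) with h1 | h1
    · have := h.mono h.A_pos.le (add_nonneg c'.area_nonneg ha0) h1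
      linarith [R.area_nonneg]
    obtain ⟨s, hsa, hs, -⟩ := exists_add c' (n1C (c j) hu (τ j))
    have h2 := hj1 s R fun f π hπ => by
      rw [hs f π hπ, ← (c j).act_restr_add_compl (hu.measurableSet_le (τ j)) hπ, hR f π hπ]
      ring
    have h3 := abs_lt.1 (hj2'.trans_le (min_le_right _ _))
    have h4 := hP s.area ⟨s.area_nonneg, by linarith⟩ (c'.area + a)
      ⟨add_nonneg c'.area_nonneg ha0, by linarith⟩ (by
        rw [Real.dist_eq, hsa, add_sub_add_left_eq_sub]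
        exact hj2'.trans_le (min_le_left _ _))
    rw [Real.dist_eq] at h4
    linarith [(abs_lt.1 h4).2]

end Crest.Agent.R241
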